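import Vale.Agent.P255.Fin
import Vale.Agent.P255.A
import Vale.Agent.P255.B
import Vale.Agent.P255.C
import Vale.Agent.P255.E
import Vale.Agent.P255.F
import Vale.Agent.P255.G
import Vale.Agent.P255.J
import Vale.Agent.P255.K
import Vale.Agent.P255.M
import Vale.Agent.P255.N
import Vale.Agent.P255.O
import Vale.Agent.P255.Q
import Vale.Agent.P255.R
import Vale.Agent.P255.T
import Vale.Agent.P255.X

open scoped Manifold ContDiff
open Vale.Agent.P255

theorem Vale.Agent.Results.P255.GraphManifold.result :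
    ∃ (M : Type) (_ : TopologicalSpace M) (_ : ChartedSpace E3 M)
      (_ : IsManifold 𝓘(ℝ, E3) ∞ M) (_ : T2Space M) (_ : CompactSpace M) (_ : ConnectedSpace M),
      (∃ g : Metric E3 M, NoConjugatePoints (ip g)) ∧
      ∀ g : Metric E3 M, ¬ NonposCurvature (ip g) :=
  fin aStmt bStmt (gStmt aStmt) (eStmt aStmt oStmt (gStmt aStmt)) (jStmt aStmt oStmt)
    (cStmt aStmt) (kStmt aStmt) xStmt nStmt tStmt (mStmt qStmt bStmt) fStmt rStmt
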